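import Mathlib

/-!
Namespaces.
-/

namespace Vale.Agent.P313.NW.BP

end Vale.Agent.P313.NW.BP

namespace Vale.Agent.P313.NW.CT

end Vale.Agent.P313.NW.CT

namespace Vale.Agent.P313.NW.H126

end Vale.Agent.P313.NW.H126

namespace Vale.Agent.P313.NW.H136

end Vale.Agent.P313.NW.H136

namespace Vale.Agent.P313.NW.H205

end Vale.Agent.P313.NW.H205

namespace Vale.Agent.P313.NW.H285

end Vale.Agent.P313.NW.H285

namespace Vale.Agent.P313.NW.H427

end Vale.Agent.P313.NW.H427

namespace Vale.Agent.P313.NW.H427L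

end Vale.Agent.P313.NW.H427L

namespace Vale.Agent.P313.NW.H644

end Vale.Agent.P313.NW.H644

namespace Vale.Agent.P313.NW.H899

end Vale.Agent.P313.NW.H899

namespace Vale.Agent.P313.NW.H931

end Vale.Agent.P313.NW.H931

namespace Vale.Agent.P313.NW.H974

end Vale.Agent.P313.NW.H974

namespace Vale.Agent.P313.NW.TS.F3

end Vale.Agent.P313.NW.TS.F3

namespace Vale.Agent.P313.NW.Z

end Vale.Agent.P313.NW.Z

namespace Vale.Agent.P313.NW.ZL

end Vale.Agent.P313.NW.ZL

namespace Vale.Agent.P313.CT

end Vale.Agent.P313.CT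

namespace Vale.Agent.P313.H136

end Vale.Agent.P313.H136

namespace Vale.Agent.P313.H205

end Vale.Agent.P313.H205

namespace Vale.Agent.P313.H427

end Vale.Agent.P313.H427

namespace Vale.Agent.P313.H427L

end Vale.Agent.P313.H427L

namespace Vale.Agent.P313.H644

end Vale.Agent.P313.H644

namespace Vale.Agent.P313.H899

end Vale.Agent.P313.H899

namespace Vale.Agent.P313.H931

end Vale.Agent.P313.H931

namespace Vale.Agent.P313.H974

end Vale.Agent.P313.H974
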